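import Mathlib

/-!
Wedderburn's factorization theorem: over a division ring with central subfield the minimal
polynomial of an element splits into linear factors whose roots are conjugates of the element.
-/

open Polynomial

namespace Vale.Agent.P011.H132.Wedd

section Eval

variable {D : Type*} [DivisionRing D]

/-- Right evaluation of a product, when the right factor does not vanish. -/
theorem eval_mul_of_ne (g h : D[X]) (a : D) (ha : h.eval a ≠ 0) :
    (g * h).eval a = g.eval (h.eval a * a * (h.eval a)⁻¹) * h.eval a := by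
  have hp : ∀ n : ℕ, (h.eval a * a * (h.eval a)⁻¹) ^ n * h.eval a = h.eval a * a ^ n := by
    intro n
    induction n with
    | zero => simp
    | succ n ih =>
      rw [pow_succ, mul_assoc, inv_mul_cancel_right₀ ha, ← mul_assoc, ih,
        mul_assoc, ← pow_succ]
  induction g using Polynomial.induction_on' with
  | add p q hp hq => rw [add_mul, eval_add, hp, hq, eval_add, add_mul]
  | monomial n c =>
    rw [← C_mul_X_pow_eq_monomial, mul_assoc, X_pow_mul, eval_C_mul, eval_mul_X_pow,
      eval_mul_X_pow, eval_C, mul_assoc, hp n]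

/-- Right evaluation of a product, when the right factor vanishes. -/
theorem eval_mul_of_eq (g h : D[X]) (a : D) (ha : h.eval a = 0) : (g * h).eval a = 0 := by
  induction g using Polynomial.induction_on' with
  | add p q hp hq => rw [add_mul, eval_add, hp, hq, add_zero]
  | monomial n c =>
    rw [← C_mul_X_pow_eq_monomial, mul_assoc, X_pow_mul, eval_C_mul, eval_mul_X_pow, ha,
      zero_mul, mul_zero]

/-- Right division by `X - b`. -/
theorem exists_div (g : D[X]) (b : D) : ∃ q : D[X], g = q * (X - C b) + C (g.eval b) := by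
  induction g using Polynomial.induction_on' with
  | add p q hp hq =>
    obtain ⟨p', hp⟩ := hp
    obtain ⟨q', hq⟩ := hq
    refine ⟨p' + q', ?_⟩
    rw [add_mul, eval_add, C_add]
    nth_rewrite 1 [hp]
    nth_rewrite 1 [hq]
    abel
  | monomial n c =>
    induction n generalizing c with
    | zero => exact ⟨0, by simp⟩
    | succ n ih =>
      obtain ⟨q, hq⟩ := ih (c * b)
      refine ⟨monomial n c + q, ?_⟩
      have h1 : (monomial (n + 1) c : D[X]) = monomial n c * (X - C b) + monomial n (c * b) := by
        rw [mul_sub, monomial_mul_X, monomial_mul_C]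
        abel
      have h2 : (monomial n (c * b) : D[X]).eval b = (monomial (n + 1) c : D[X]).eval b := by
        rw [eval_monomial, eval_monomial, pow_succ', mul_assoc]
      rw [← h2, add_mul, add_assoc, ← hq]
      exact h1

theorem exists_factor (g : D[X]) (b : D) (hb : g.eval b = 0) :
    ∃ q : D[X], g = q * (X - C b) := by
  obtain ⟨q, hq⟩ := exists_div g b
  refine ⟨q, ?_⟩
  rw [hb, C_0, add_zero] at hq
  exact hq

end Eval

section Main

variable {K D : Type*} [Field K] [DivisionRing D] [Algebra K D] [Algebra.IsCentral K D]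

/-- A polynomial which vanishes at all conjugates of `w` has at least the degree of the minimal
polynomial. -/
theorem le_natDegree {w : D} (n : ℕ) : ∀ (h : D[X]), h ≠ 0 → h.natDegree = n →
    (∀ g : D, g ≠ 0 → h.eval (g * w * g⁻¹) = 0) → (minpoly K w).natDegree ≤ n := by
  induction n using Nat.strong_induction_on with
  | _ n ih =>
    intro h0 hh0 hn0 hv0
    -- make `h` monic
    set h : D[X] := C h0.leadingCoeff⁻¹ * h0 with hh
    have hlc : h0.leadingCoeff ≠ 0 := leadingCoeff_ne_zero.mpr hh0
    have hmon : h.Monic := by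
      rw [hh, Monic, leadingCoeff_mul, leadingCoeff_C, inv_mul_cancel₀ hlc]
    have hn : h.natDegree = n := by
      rw [hh, natDegree_C_mul (inv_ne_zero hlc), hn0]
    have hv : ∀ g : D, g ≠ 0 → h.eval (g * w * g⁻¹) = 0 := by
      intro g hg
      rw [hh, eval_C_mul, hv0 g hg, mul_zero]
    by_cases hall : ∀ d : D, d ≠ 0 → C d * h * C d⁻¹ = h
    · -- all coefficients are central
      have hc : h ∈ lifts (algebraMap K D) := by
        rw [lifts_iff_coeff_lifts]
        intro i
        have hcomm : ∀ d : D, d * h.coeff i = h.coeff i * d := by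
          intro d
          by_cases hd : d = 0
          · rw [hd, zero_mul, mul_zero]
          · have := congrArg (fun p => coeff p i) (hall d hd)
            simp only [coeff_mul_C, coeff_C_mul] at this
            calc d * h.coeff i = d * h.coeff i * d⁻¹ * d := by
                  rw [inv_mul_cancel_right₀ hd]
              _ = h.coeff i * d := by rw [this]
        have hmem : h.coeff i ∈ Subalgebra.center K D :=
          Subalgebra.mem_center_iff.mpr hcomm
        have := Algebra.IsCentral.out (K := K) hmem
        rw [Algebra.mem_bot] at this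
        exact this
      obtain ⟨p, hp⟩ := (mem_lifts h).mp hc
      have hp0 : p ≠ 0 := by
        rintro rfl
        rw [Polynomial.map_zero] at hp
        exact hmon.ne_zero hp.symm
      have hw : aeval w p = 0 := by
        rw [← eval_map_algebraMap, hp]
        have := hv 1 one_ne_zero
        rwa [one_mul, inv_one, mul_one] at this
      have h1 : (minpoly K w).natDegree ≤ p.natDegree :=
        natDegree_le_natDegree (minpoly.degree_le_of_ne_zero K w hp0 hw)
      rw [← hn, ← hp, natDegree_map]
      exact h1
    · push Not at hall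
      obtain ⟨d, hd, hne⟩ := hall
      have hk0 : h - C d * h * C d⁻¹ ≠ 0 := fun h0 => hne (sub_eq_zero.mp h0).symm
      have hdi : d⁻¹ ≠ 0 := inv_ne_zero hd
      have hm1 : (C d * h * C d⁻¹).Monic := by
        rw [Monic, leadingCoeff_mul, leadingCoeff_mul, leadingCoeff_C, leadingCoeff_C,
          hmon.leadingCoeff, mul_one, mul_inv_cancel₀ hd]
      have hdeg1 : (C d * h * C d⁻¹).natDegree = n := by
        rw [natDegree_mul_C hdi, natDegree_C_mul hd, hn]
      have hlt : (h - C d * h * C d⁻¹).natDegree < n := by
        have h1 : (h - C d * h * C d⁻¹).degree < h.degree := by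
          apply degree_sub_lt_left
          · rw [degree_eq_natDegree hmon.ne_zero, degree_eq_natDegree hm1.ne_zero, hn, hdeg1]
          · exact hmon.ne_zero
          · rw [hmon.leadingCoeff, hm1.leadingCoeff]
        have h2 := natDegree_lt_natDegree hk0 h1
        rwa [hn] at h2
      have hv1 : ∀ g : D, g ≠ 0 → (h - C d * h * C d⁻¹).eval (g * w * g⁻¹) = 0 := by
        intro g hg
        have h3 : (C d * h * C d⁻¹).eval (g * w * g⁻¹) = 0 := by
          rw [eval_mul_of_ne _ _ _ (by rw [eval_C]; exact hdi), eval_C, eval_C_mul]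
          have h4 : d⁻¹ * (g * w * g⁻¹) * d⁻¹⁻¹ = (d⁻¹ * g) * w * (d⁻¹ * g)⁻¹ := by
            rw [mul_inv_rev]
            simp only [mul_assoc]
          rw [h4, hv _ (mul_ne_zero hdi hg), mul_zero, zero_mul]
        rw [eval_sub, hv g hg, h3, sub_zero]
      exact (ih _ hlt _ hk0 rfl hv1).trans hlt.le

omit [Algebra.IsCentral K D] in
theorem eval_conj (w g : D) (hg : g ≠ 0) :
    ((minpoly K w).map (algebraMap K D)).eval (g * w * g⁻¹) = 0 := by
  have h1 : ∀ p : K[X], (p.map (algebraMap K D)).eval (g * w * g⁻¹) =
      g * (p.map (algebraMap K D)).eval w * g⁻¹ := by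
    intro p
    have hp : ∀ n : ℕ, (g * w * g⁻¹) ^ n = g * w ^ n * g⁻¹ := by
      intro n
      induction n with
      | zero => rw [pow_zero, pow_zero, mul_one, mul_inv_cancel₀ hg]
      | succ n ih =>
        rw [pow_succ, ih, pow_succ]
        simp only [mul_assoc]
        rw [inv_mul_cancel_left₀ hg]
    induction p using Polynomial.induction_on' with
    | add p q hp hq =>
      rw [Polynomial.map_add, eval_add, eval_add, hp, hq, mul_add, add_mul]
    | monomial n c =>
      rw [map_monomial, eval_monomial, eval_monomial, hp]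
      rw [← mul_assoc, ← mul_assoc, Algebra.commutes c g]
      simp only [mul_assoc]
  rw [h1, eval_map_algebraMap, minpoly.aeval, mul_zero, zero_mul]

/-- The product attached to a list of conjugators. -/
noncomputable def pp (w : D) (l : List D) : D[X] := (l.map fun g => X - C (g * w * g⁻¹)).prod

theorem pp_monic (w : D) (l : List D) : (pp w l).Monic ∧ (pp w l).natDegree = l.length := by
  induction l with
  | nil => simp [pp]
  | cons g l ih =>
    have h1 : pp w (g :: l) = (X - C (g * w * g⁻¹)) * pp w l := by simp [pp]
    rw [h1]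
    refine ⟨(monic_X_sub_C _).mul ih.1, ?_⟩
    rw [(monic_X_sub_C _).natDegree_mul ih.1, natDegree_X_sub_C, ih.2, List.length_cons,
      add_comm]

theorem exists_list (w : D) (r : ℕ) (hr : r ≤ (minpoly K w).natDegree) :
    ∃ l : List D, l.length = r ∧ (∀ g ∈ l, g ≠ 0) ∧
      ∃ q : D[X], (minpoly K w).map (algebraMap K D) = q * pp w l := by
  induction r with
  | zero =>
    refine ⟨[], rfl, by simp, (minpoly K w).map (algebraMap K D), ?_⟩
    simp [pp]
  | succ r ih =>
    obtain ⟨l, hl, hl0, q, hq⟩ := ih (Nat.le_of_succ_le hr)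
    have h1 : ∃ g : D, g ≠ 0 ∧ (pp w l).eval (g * w * g⁻¹) ≠ 0 := by
      by_contra hcon
      push Not at hcon
      have h2 := le_natDegree (K := K) r (pp w l) (pp_monic w l).1.ne_zero
        ((pp_monic w l).2.trans hl) hcon
      omega
    obtain ⟨g, hg, hne⟩ := h1
    have h3 := eval_conj (K := K) w g hg
    rw [hq, eval_mul_of_ne _ _ _ hne] at h3
    have h4 := (mul_eq_zero.mp h3).resolve_right hne
    set e := (pp w l).eval (g * w * g⁻¹) with he
    have h5 : e * (g * w * g⁻¹) * e⁻¹ = (e * g) * w * (e * g)⁻¹ := by
      rw [mul_inv_rev]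
      simp only [mul_assoc]
    rw [h5] at h4
    obtain ⟨q', hq'⟩ := exists_factor q _ h4
    refine ⟨(e * g) :: l, by simp [hl], ?_, q', ?_⟩
    · intro x hx
      rcases List.mem_cons.mp hx with rfl | hx
      · exact mul_ne_zero hne hg
      · exact hl0 x hx
    · have h6 : pp w ((e * g) :: l) = (X - C (e * g * w * (e * g)⁻¹)) * pp w l := by simp [pp]
      rw [h6, ← mul_assoc, ← hq', hq]

/-- **Wedderburn's factorization theorem.** -/
theorem wedderburn {w : D} (hw : IsIntegral K w) :
    ∃ l : List D, l.length = (minpoly K w).natDegree ∧ (∀ g ∈ l, g ≠ 0) ∧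
      (minpoly K w).map (algebraMap K D) = (l.map fun g => X - C (g * w * g⁻¹)).prod := by
  obtain ⟨l, hl, hl0, q, hq⟩ := exists_list (K := K) w _ le_rfl
  refine ⟨l, hl, hl0, ?_⟩
  have hm : ((minpoly K w).map (algebraMap K D)).Monic := (minpoly.monic hw).map _
  have hp := pp_monic w l
  have hq1 : q.Monic := by
    have h1 := hm
    rw [hq, Monic, leadingCoeff_mul, hp.1.leadingCoeff, mul_one] at h1
    exact h1
  have hd : q.natDegree = 0 := by
    have h1 : ((minpoly K w).map (algebraMap K D)).natDegree = (minpoly K w).natDegree :=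
      (minpoly.monic hw).natDegree_map _
    rw [hq, hq1.natDegree_mul hp.1, hp.2, hl] at h1
    omega
  have hq2 : q = 1 := by
    rw [eq_C_of_natDegree_eq_zero hd]
    have h1 := hq1.coeff_natDegree
    rw [hd] at h1
    rw [h1, C_1]
  rw [hq, hq2, one_mul]
  rfl

theorem coeff_zero_prod (w : D) (l : List D) :
    (pp w l).coeff 0 = (-1) ^ l.length * (l.map fun g => g * w * g⁻¹).prod := by
  induction l with
  | nil => simp [pp]
  | cons g l ih =>
    have h1 : pp w (g :: l) = (X - C (g * w * g⁻¹)) * pp w l := by simp [pp]
    rw [h1, mul_coeff_zero, ih, coeff_sub, coeff_X_zero, coeff_C_zero, zero_sub,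
      List.length_cons, List.map_cons, List.prod_cons, pow_succ]
    have h2 : Commute ((-1 : D) ^ l.length) (g * w * g⁻¹) :=
      ((Commute.one_left _).neg_left).pow_left _
    rw [← mul_assoc, neg_mul, ← h2.eq]
    simp only [mul_assoc, neg_mul, one_mul, mul_neg]

/-- The norm (up to sign the constant term of the minimal polynomial) of `w` is a product of
conjugates of `w`. -/
theorem norm_prod {w : D} (hw : IsIntegral K w) :
    ∃ l : List D, l.length = (minpoly K w).natDegree ∧ (∀ g ∈ l, g ≠ 0) ∧
      algebraMap K D ((-1) ^ (minpoly K w).natDegree * (minpoly K w).coeff 0) =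
        (l.map fun g => g * w * g⁻¹).prod := by
  obtain ⟨l, hl, hl0, hp⟩ := wedderburn (K := K) hw
  refine ⟨l, hl, hl0, ?_⟩
  have h1 : ((minpoly K w).map (algebraMap K D)).coeff 0 = (pp w l).coeff 0 := by
    rw [hp]; rfl
  rw [coeff_map, coeff_zero_prod, hl] at h1
  rw [map_mul, h1, ← mul_assoc, map_pow, map_neg, map_one, ← pow_add, Even.neg_one_pow ⟨_, rfl⟩,
    one_mul]

end Main

end Vale.Agent.P011.H132.Wedd
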