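import Vale.Agent.P011.H132.Wedd
import Vale.Agent.P011.H505.WangB

/-!
The reduced norm of every element of a central division algebra of degree `n` is a product of
`n` conjugates of the element.
-/

open Polynomial Module

namespace Vale.Agent.P011.H132.Wedd

open Vale.Agent.P011.W (HasNrd deg_pos exists_maxfield)
open Vale.Agent.P011.H505.Wang (hasNrd_norm)

section

variable {K D : Type} [Field K] [Infinite K] [DivisionRing D] [Algebra K D]
  [FiniteDimensional K D] [Algebra.IsCentral K D] {n : ℕ}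

/-- The norm from a field in terms of the minimal polynomial. -/
theorem norm_eq_pow {K L : Type} [Field K] [Field L] [Algebra K L] [FiniteDimensional K L]
    (x : L) : ∃ e : ℕ, (minpoly K x).natDegree * e = finrank K L ∧
      Algebra.norm K x = ((-1) ^ (minpoly K x).natDegree * (minpoly K x).coeff 0) ^ e := by
  have hx : IsIntegral K x := Algebra.IsIntegral.isIntegral x
  refine ⟨finrank (IntermediateField.adjoin K {x}) L, ?_, ?_⟩
  · rw [← IntermediateField.adjoin.finrank hx]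
    exact Module.finrank_mul_finrank _ _ _
  · rw [Algebra.norm_eq_norm_adjoin K x]
    congr 1
    have h1 := Algebra.PowerBasis.norm_gen_eq_coeff_zero_minpoly
      (IntermediateField.adjoin.powerBasis hx)
    rw [IntermediateField.adjoin.powerBasis_gen, IntermediateField.adjoin.powerBasis_dim,
      IntermediateField.minpoly_gen] at h1
    exact h1

omit [Infinite K] [FiniteDimensional K D] [Algebra.IsCentral K D] in
theorem exists_list_pow {w : D} {ν : K} {m : ℕ} (h : ∃ l : List D, l.length = m ∧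
      (∀ g ∈ l, g ≠ 0) ∧ algebraMap K D ν = (l.map fun g => g * w * g⁻¹).prod) (e : ℕ) :
    ∃ l : List D, l.length = m * e ∧ (∀ g ∈ l, g ≠ 0) ∧
      algebraMap K D (ν ^ e) = (l.map fun g => g * w * g⁻¹).prod := by
  obtain ⟨l, hl, hl0, hp⟩ := h
  induction e with
  | zero => exact ⟨[], by simp, by simp, by simp⟩
  | succ e ih =>
    obtain ⟨l', hl', hl0', hp'⟩ := ih
    refine ⟨l ++ l', by rw [List.length_append, hl, hl', Nat.mul_succ, add_comm], ?_, ?_⟩
    · intro g hg
      rcases List.mem_append.mp hg with h | h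
      · exact hl0 g h
      · exact hl0' g h
    · rw [List.map_append, List.prod_append, ← hp, ← hp', pow_succ', map_mul]

/-- **The reduced norm is a product of `n` conjugates.** -/
theorem nrd_prod (hdeg : finrank K D = n ^ 2) {w : D} {ν : K} (hν : HasNrd K n w ν) :
    ∃ l : List D, l.length = n ∧ (∀ g ∈ l, g ≠ 0) ∧
      algebraMap K D ν = (l.map fun g => g * w * g⁻¹).prod := by
  obtain ⟨L, _, _, _, j, u, hL, rfl⟩ := exists_maxfield hdeg w
  have hfinL : FiniteDimensional K L :=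
    Module.finite_of_finrank_pos (by rw [hL]; exact deg_pos hdeg)
  have h1 := hasNrd_norm hdeg hL j u
  obtain ⟨Ω, _, _, ⟨f⟩⟩ : ∃ (Ω : Type) (_ : Field Ω) (_ : Algebra K Ω),
      Nonempty (D →ₐ[K] Matrix (Fin n) (Fin n) Ω) :=
    ⟨AlgebraicClosure K, inferInstance, inferInstance,
      Vale.Agent.P011S.exists_split (K := K) (D := D) hdeg (AlgebraicClosure K)⟩
  have h2 : ν = Algebra.norm K u :=
    (algebraMap K Ω).injective ((hν Ω f).symm.trans (h1 Ω f))
  obtain ⟨e, he, hn⟩ := norm_eq_pow (K := K) u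
  have hju : IsIntegral K (j u) := Algebra.IsIntegral.isIntegral _
  have hmin : minpoly K (j u) = minpoly K u := minpoly.algHom_eq j j.toRingHom.injective u
  have h3 := exists_list_pow (norm_prod (K := K) hju) e
  rw [hmin, he, hL] at h3
  rw [h2, hn]
  exact h3

/-- The same for the determinant in a splitting. -/
theorem det_prod (hdeg : finrank K D = n ^ 2) {Ω : Type} [Field Ω] [Algebra K Ω]
    (f : D →ₐ[K] Matrix (Fin n) (Fin n) Ω) (w : D) :
    ∃ ν : K, HasNrd K n w ν ∧ (f w).det = algebraMap K Ω ν ∧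
      ∃ l : List D, l.length = n ∧ (∀ g ∈ l, g ≠ 0) ∧
        algebraMap K D ν = (l.map fun g => g * w * g⁻¹).prod := by
  obtain ⟨L, _, _, _, j, u, hL, rfl⟩ := exists_maxfield hdeg w
  have h1 := hasNrd_norm hdeg hL j u
  exact ⟨_, h1, h1 Ω f, nrd_prod hdeg h1⟩

end

/-- Wedderburn for homomorphisms: a multiplicative function on a set `P` closed under
multiplication and conjugation, which is invariant under conjugation, takes at a product of
conjugates the value `Psi w ^ length`. -/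
theorem map_prod_conj {D E : Type*} [DivisionRing D] [CommMonoid E] {P : Set D} {Ψ : D → E}
    (h1 : (1 : D) ∈ P) (hm : ∀ x ∈ P, ∀ y ∈ P, x * y ∈ P)
    (hc : ∀ x ∈ P, ∀ g : D, g ≠ 0 → g * x * g⁻¹ ∈ P)
    (hΨ1 : Ψ 1 = 1) (hΨ : ∀ x ∈ P, ∀ y ∈ P, Ψ (x * y) = Ψ x * Ψ y)
    (hΨc : ∀ x ∈ P, ∀ g : D, g ≠ 0 → Ψ (g * x * g⁻¹) = Ψ x) {w : D} (hw : w ∈ P) :
    ∀ l : List D, (∀ g ∈ l, g ≠ 0) → (l.map fun g => g * w * g⁻¹).prod ∈ P ∧
      Ψ (l.map fun g => g * w * g⁻¹).prod = Ψ w ^ l.length := by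
  intro l
  induction l with
  | nil => intro _; simp [h1, hΨ1]
  | cons g l ih =>
    intro hl
    have hg := hl g List.mem_cons_self
    obtain ⟨h2, h3⟩ := ih fun x hx => hl x (List.mem_cons_of_mem _ hx)
    have h4 := hc w hw g hg
    rw [List.map_cons, List.prod_cons]
    refine ⟨hm _ h4 _ h2, ?_⟩
    rw [hΨ _ h4 _ h2, hΨc w hw g hg, h3, List.length_cons, pow_succ']

/-- The value at the reduced norm. -/
theorem map_nrd {K D : Type} [Field K] [Infinite K] [DivisionRing D] [Algebra K D]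
    [FiniteDimensional K D] [Algebra.IsCentral K D] {n : ℕ} (hdeg : finrank K D = n ^ 2)
    {E : Type*} [CommMonoid E] {P : Set D} {Ψ : D → E}
    (h1 : (1 : D) ∈ P) (hm : ∀ x ∈ P, ∀ y ∈ P, x * y ∈ P)
    (hc : ∀ x ∈ P, ∀ g : D, g ≠ 0 → g * x * g⁻¹ ∈ P)
    (hΨ1 : Ψ 1 = 1) (hΨ : ∀ x ∈ P, ∀ y ∈ P, Ψ (x * y) = Ψ x * Ψ y)
    (hΨc : ∀ x ∈ P, ∀ g : D, g ≠ 0 → Ψ (g * x * g⁻¹) = Ψ x) {w : D} (hw : w ∈ P)
    {ν : K} (hν : HasNrd K n w ν) :
    algebraMap K D ν ∈ P ∧ Ψ (algebraMap K D ν) = Ψ w ^ n := by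
  obtain ⟨l, hl, hl0, hp⟩ := nrd_prod hdeg hν
  have h2 := map_prod_conj h1 hm hc hΨ1 hΨ hΨc hw l hl0
  rw [← hp, hl] at h2
  exact h2

end Vale.Agent.P011.H132.Wedd
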